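import Crest.Agent.N111.Lib.BM

/-!
# Row 111, module B: local operators on `L²(X; H)` (no direct integrals).
-/

set_option autoImplicit false

namespace Crest.Agent.N111.B

open MeasureTheory Topology Filter
open scoped ENNReal InnerProductSpace

variable {H H' : Type*} [NormedAddCommGroup H] [InnerProductSpace ℂ H]
  [NormedAddCommGroup H'] [InnerProductSpace ℂ H']

/-- commuting with all indicators -/
def Loc (T : L2X H →L[ℂ] L2X H') : Prop :=
  ∀ A, MeasurableSet A → ∀ ξ, T (mul1 H A ξ) = mul1 H' A (T ξ)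

lemma loc_fld {T : X → H →L[ℂ] H'} (hT : IsFld μ T) : Loc (fld μ T) := fun _ hA ξ =>
  (congrArg (fun S : L2X H →L[ℂ] L2X H' => S ξ) (mul1_fld hA hT)).symm

lemma Loc.comp_eq {T : L2X H →L[ℂ] L2X H'} (h : Loc T) (A : Set X) (hA : MeasurableSet A) :
    T ∘L mul1 H A = mul1 H' A ∘L T := by
  ext1 ξ; exact h A hA ξ

lemma Loc.mul {S T : L2X H →L[ℂ] L2X H} (hS : Loc S) (hT : Loc T) : Loc (S * T) := fun A hA ξ => by
  rw [mul_apply_eq_comp, mul_apply_eq_comp, hT A hA, hS A hA]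

lemma Loc.adj [CompleteSpace H] {T : L2X H →L[ℂ] L2X H} (hT : Loc T) : Loc (star T) :=
  fun A hA ξ => ext_inner_left ℂ fun η => by
    rw [ContinuousLinearMap.star_eq_adjoint, ContinuousLinearMap.adjoint_inner_right,
      ← inner_mul1_left hA, ← inner_mul1_left hA, ContinuousLinearMap.adjoint_inner_right, hT A hA]

lemma inner_mul1_eq {A : Set X} (hA : MeasurableSet A) (ξ η : L2X H) :
    ⟪mul1 H A ξ, η⟫_ℂ = ∫ x in A, ⟪ξ x, η x⟫_ℂ ∂μ := by
  rw [L2.inner_def, ← integral_indicator hA]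
  refine integral_congr_ae ?_
  filter_upwards [mul1_coeFn hA ξ] with x hx
  rw [hx]
  by_cases h : x ∈ A <;> simp [h]

theorem ae_inner_eq {a b : L2X H} {c d : L2X H'}
    (h : ∀ A, MeasurableSet A → ⟪mul1 H A a, b⟫_ℂ = ⟪mul1 H' A c, d⟫_ℂ) :
    ∀ᵐ x ∂μ, ⟪a x, b x⟫_ℂ = ⟪c x, d x⟫_ℂ :=
  Integrable.ae_eq_of_forall_setIntegral_eq _ _ (L2.integrable_inner a b) (L2.integrable_inner c d)
    fun A hA _ => by rw [← inner_mul1_eq hA, ← inner_mul1_eq hA, h A hA]

/-- pointwise adjoint -/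
theorem Loc.ae_adj [CompleteSpace H] {T : L2X H →L[ℂ] L2X H} (hT : Loc T) (a b : L2X H) :
    ∀ᵐ x ∂μ, ⟪a x, T b x⟫_ℂ = ⟪star T a x, b x⟫_ℂ :=
  ae_inner_eq fun A hA => by
    rw [← hT.adj A hA, ContinuousLinearMap.star_eq_adjoint, ContinuousLinearMap.adjoint_inner_left]

/-- locality -/
theorem Loc.ae_congr {T : L2X H →L[ℂ] L2X H'} (hT : Loc T) {A : Set X} (hA : MeasurableSet A)
    {a b : L2X H} (h : ∀ᵐ x ∂μ, x ∈ A → a x = b x) : ∀ᵐ x ∂μ, x ∈ A → T a x = T b x := by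
  have e : mul1 H A a = mul1 H A b := by
    refine Lp.ext ?_
    filter_upwards [mul1_coeFn hA a, mul1_coeFn hA b, h] with x h1 h2 h3
    rw [h1, h2]
    by_cases hx : x ∈ A <;> simp [hx, h3]
  filter_upwards [mul1_coeFn hA (T a), mul1_coeFn hA (T b)] with x h1 h2 hx
  rw [← hT A hA, e, hT A hA, h2, Set.indicator_of_mem hx, Set.indicator_of_mem hx] at h1
  exact h1.symm

/-- a local operator applied to a countably valued vector field -/
theorem Loc.ae_piece {T : L2X H →L[ℂ] L2X H'} (hT : Loc T) {c : X → Γ} (hc : Measurable c)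
    {v : Γ → H} {a : L2X H} (h : ∀ᵐ x ∂μ, a x = v (c x)) :
    ∀ᵐ x ∂μ, T a x = T (cst H (v (c x))) x := by
  have h1 : ∀ γ, ∀ᵐ x ∂μ, x ∈ c ⁻¹' {γ} → T a x = T (cst H (v γ)) x := fun γ =>
    hT.ae_congr (hc MeasurableSet.of_discrete) (by
      filter_upwards [h, cst_coeFn (v γ)] with x h1 h2 hx
      rw [h1, h2, show c x = γ from hx])
  filter_upwards [ae_all_iff.2 h1] with x hx using hx _ rfl

theorem Loc.ext_cst {S T : L2X H →L[ℂ] L2X H'} (hS : Loc S) (hT : Loc T)
    (h : ∀ v, S (cst H v) = T (cst H v)) : S = T :=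
  L2X_ext fun A hA v => by rw [hS A hA, hT A hA, h]

/-- unfolding a property holding along every translate -/
theorem unfold_ae {F : X → X → Γ → Prop} (hF : ∀ γ, MeasurableSet {p : X × X | F p.1 p.2 γ})
    (h : ∀ g : G, ∀ᵐ x ∂μ, F x (g • x) (coc g x)) (γ : Γ) : ∀ᵐ x ∂μ, ∀ᵐ x' ∂μ, F x x' γ := by
  have hm : MeasurableSet {p : G × X | F p.2 (p.1 • p.2) (coc p.1 p.2)} := by
    have e : {p : G × X | F p.2 (p.1 • p.2) (coc p.1 p.2)} = ⋃ δ : Γ,
        (fun p : G × X => coc p.1 p.2) ⁻¹' {δ} ∩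
          (fun p : G × X => (p.2, p.1 • p.2)) ⁻¹' {q : X × X | F q.1 q.2 δ} := by
      ext p; simp
    rw [e]
    exact MeasurableSet.iUnion fun δ =>
      (measurable_coc measurable_fst measurable_snd MeasurableSet.of_discrete).inter
        ((measurable_snd.prodMk (measurable_fst.smul measurable_snd)) (hF δ))
  have h1 := (Measure.ae_ae_comm (μ := m) (ν := μ)
    (p := fun g x => F x (g • x) (coc g x)) hm).1 (Eventually.of_forall h)
  filter_upwards [h1] with x hx
  have h2 := (measurePreserving_mul_right m (sec x)⁻¹).quasiMeasurePreserving.ae hx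
  simpa only [smul_sec_mul, coc_sec_mul] using ae_pr_iff.1 h2 γ

/-- a local intertwiner of induced representations is constant -/
theorem Loc.const_of_intertwine [CompleteSpace H] [CompleteSpace H'] {π : URep Γ H}
    {π' : URep Γ H'} {T : L2X H →L[ℂ] L2X H'} (hT : Loc T)
    (h : ∀ g ξ, T (ind π g ξ) = ind π' g (T ξ)) (γ : Γ) (v : H) :
    ContinuousLinearMap.adjoint (cst H') (T (cst H (π γ v)))
      = π' γ (ContinuousLinearMap.adjoint (cst H') (T (cst H v))) := by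
  have h1 : ∀ (w : H) (g : G), ∀ᵐ x ∂μ,
      T (cst H (π (coc g x) w)) (g • x) = π' (coc g x) (T (cst H w) x) := fun w g => by
    have h2 := hT.ae_piece (c := fun x => (coc g⁻¹ x)⁻¹) (by fun_prop) (v := fun δ => π δ w)
      (ind_cst_coeFn π g w)
    filter_upwards [ae_smul g h2, ind_coeFn' π' g (T (cst H w))] with x h3 h4
    rw [coc_inv, inv_inv, h] at h3
    rw [← h3, h4]
  have h2 := unfold_ae (F := fun x x' δ => T (cst H (π δ v)) x' = π' δ (T (cst H v) x))
    (fun δ => ((Lp.stronglyMeasurable _).comp_measurable measurable_snd).measurableSet_eq_fun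
      ((π' δ).continuous.comp_stronglyMeasurable
        ((Lp.stronglyMeasurable _).comp_measurable measurable_fst))) (h1 v)
  obtain ⟨x, hx1, hx2⟩ := ((h2 γ).and (h2 1)).exists
  have e : ∀ (ζ : L2X H') (w : H'), (∀ᵐ y ∂μ, ζ y = w) →
      ContinuousLinearMap.adjoint (cst H') ζ = w := fun ζ w hw => by
    have : ζ = cst H' w := Lp.ext (EventuallyEq.trans hw (cst_coeFn w).symm)
    exact ext_inner_left ℂ fun u => by
      rw [ContinuousLinearMap.adjoint_inner_right, this, inner_cst_cst]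
  rw [e _ _ hx1, e _ (T (cst H v) x) (by simpa using hx2)]

lemma adj_cst_amp [CompleteSpace H] [CompleteSpace H'] (A : H →L[ℂ] H') (ζ : L2X H) :
    ContinuousLinearMap.adjoint (cst H') (amp A ζ) = A (ContinuousLinearMap.adjoint (cst H) ζ) := by
  refine ext_inner_left ℂ fun u => ?_
  rw [ContinuousLinearMap.adjoint_inner_right, ← ContinuousLinearMap.adjoint_inner_left A,
    ContinuousLinearMap.adjoint_inner_right, inner_cst_left, inner_cst_left]
  refine integral_congr_ae ((amp_coeFn A ζ).mono fun x hx => ?_)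
  simp only [hx, ContinuousLinearMap.adjoint_inner_left]

lemma adj_cst_eq [CompleteSpace H] (ζ : L2X H) :
    ContinuousLinearMap.adjoint (cst H) ζ = ∫ x, ζ x ∂μ :=
  ext_inner_left ℂ fun u => by rw [ContinuousLinearMap.adjoint_inner_right, integral_mem_fix_aux]

/-- rows with orthogonal initial spaces -/
theorem sum_rows_le [CompleteSpace H] [CompleteSpace H'] {κ : Type*} (F : Finset κ)
    (T : κ → H →L[ℂ] H') {C : ℝ} (hC : ∀ k, ‖T k‖ ≤ C)
    (h : ∀ k ∈ F, ∀ l ∈ F, k ≠ l → T k ∘L ContinuousLinearMap.adjoint (T l) = 0) (z : H) :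
    ∑ k ∈ F, ‖T k z‖ ^ 2 ≤ C ^ 2 * ‖z‖ ^ 2 := by
  set S := ∑ k ∈ F, ‖T k z‖ ^ 2 with hS
  set w := ∑ k ∈ F, ContinuousLinearMap.adjoint (T k) (T k z) with hw
  have hS0 : 0 ≤ S := Finset.sum_nonneg fun _ _ => sq_nonneg _
  have h1 : S = (⟪z, w⟫_ℂ).re := by
    simp only [hS, hw, inner_sum, Complex.re_sum, ContinuousLinearMap.adjoint_inner_right,
      inner_self_eq_norm_sq_to_K]
    norm_cast
  have h2 : ‖w‖ ^ 2 ≤ C ^ 2 * S := by
    have e : ‖w‖ ^ 2 = ∑ k ∈ F, ‖ContinuousLinearMap.adjoint (T k) (T k z)‖ ^ 2 := by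
      rw [← inner_self_eq_norm_sq (𝕜 := ℂ), hw, sum_inner, map_sum]
      refine Finset.sum_congr rfl fun k hk => ?_
      rw [inner_sum, Finset.sum_eq_single k (fun l hl hlk => ?_) (fun h => absurd hk h),
        inner_self_eq_norm_sq]
      rw [ContinuousLinearMap.adjoint_inner_left, ← ContinuousLinearMap.comp_apply,
        h k hk l hl hlk.symm, zero_apply, inner_zero_right]
    rw [e, hS, Finset.mul_sum]
    refine Finset.sum_le_sum fun k _ => ?_
    rw [← mul_pow]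
    gcongr
    exact ContinuousLinearMap.le_of_opNorm_le _
      (by rw [LinearIsometryEquiv.norm_map]; exact hC k) _
  have h3 : S ≤ ‖z‖ * ‖w‖ := h1 ▸ (Complex.re_le_norm _).trans (norm_inner_le_norm _ _)
  have h4 : S ^ 2 ≤ ‖z‖ ^ 2 * (C ^ 2 * S) := by
    calc S ^ 2 ≤ (‖z‖ * ‖w‖) ^ 2 := by gcongr
      _ ≤ _ := by rw [mul_pow]; gcongr
  rcases hS0.eq_or_lt with h0 | h0
  · rw [← h0]; positivity
  · nlinarith

/-- integration of pointwise `HasSum` identities for squared norms -/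
theorem hasSum_norm_sq_of_ae {κ : Type*} [Countable κ] {a : κ → L2X H} {b : L2X H'}
    (h : ∀ᵐ x ∂μ, HasSum (fun k => ‖a k x‖ ^ 2) (‖b x‖ ^ 2)) :
    HasSum (fun k => ‖a k‖ ^ 2) (‖b‖ ^ 2) := by
  simp only [norm_sq_eq_integral]
  refine hasSum_integral_of_dominated_convergence (fun k x => ‖a k x‖ ^ 2)
    (fun k => (integrable_norm_sq (a k)).aestronglyMeasurable)
    (fun k => Eventually.of_forall fun x => (Real.norm_of_nonneg (sq_nonneg _)).le)
    (h.mono fun x hx => hx.summable) ((integrable_norm_sq b).congr (h.mono fun x hx => ?_)) h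
  exact hx.tsum_eq.symm

theorem sum_norm_sq_le_of_ae {κ : Type*} (F : Finset κ) {a : κ → L2X H} {b : L2X H'} {C : ℝ}
    (h : ∀ᵐ x ∂μ, ∑ k ∈ F, ‖a k x‖ ^ 2 ≤ C * ‖b x‖ ^ 2) :
    ∑ k ∈ F, ‖a k‖ ^ 2 ≤ C * ‖b‖ ^ 2 := by
  simp only [norm_sq_eq_integral]
  rw [← integral_finsetSum F fun k _ => integrable_norm_sq (a k), ← integral_const_mul]
  exact integral_mono_ae (integrable_finsetSum F fun k _ => integrable_norm_sq (a k))
    ((integrable_norm_sq b).const_mul C) h

/-! ### scalar multiplication operators -/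

lemma bm_isFld {a : X → ℂ} (ha : BM a) : IsFld μ fun x => a x • (1 : H →L[ℂ] H) := by
  obtain ⟨h1, C, hC⟩ := ha
  exact (IsFld.const 1).smul h1.aestronglyMeasurable (Eventually.of_forall hC)

lemma bm_star {Y : Type} [MeasurableSpace Y] {a : Y → ℂ} (ha : BM a) : BM fun x => star (a x) :=
  ha.conj

lemma bm_indicator {Y : Type} [MeasurableSpace Y] {A : Set Y} (hA : MeasurableSet A) :
    BM (A.indicator (1 : Y → ℂ)) :=
  ⟨measurable_one.indicator hA, 1, fun x => by by_cases hx : x ∈ A <;> simp [hx]⟩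

lemma mulf_one : mulf H (fun _ => 1) = 1 := by simp [mulf]

lemma mulf_coeFn {a : X → ℂ} (ha : BM a) (ξ : L2X H) : mulf H a ξ =ᵐ[μ] fun x => a x • ξ x :=
  (bm_isFld ha).coeFn ξ

lemma mulf_mul {a b : X → ℂ} (ha : BM a) (hb : BM b) :
    mulf H (fun x => a x * b x) = mulf H a * mulf H b := by
  rw [mulf, mulf, mulf, ← fld_mul (bm_isFld ha) (bm_isFld hb)]
  simp [smul_smul, mul_comm]

lemma star_mulf [CompleteSpace H] {a : X → ℂ} (ha : BM a) :
    star (mulf H a) = mulf H fun x => star (a x) := by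
  rw [mulf, star_fld (bm_isFld ha) (by simpa using bm_isFld (H := H) (bm_star ha)), mulf]
  simp

lemma mulf_fld {a : X → ℂ} (ha : BM a) {T : X → H →L[ℂ] H} (hT : IsFld μ T) :
    mulf H a * fld μ T = fld μ T * mulf H a := by
  rw [mulf, ← fld_mul (bm_isFld ha) hT, ← fld_mul hT (bm_isFld ha)]
  simp

lemma ind_mulf (π : URep Γ H) (g : G) {a : X → ℂ} (ha : BM a) :
    ind π g * mulf H a * ind π g⁻¹ = mulf H fun x => a (g⁻¹ • x) := by
  have := ind_fld (bm_isFld (H := H) ha) π π g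
  rw [mul_assoc]
  refine this.trans ?_
  congr 1
  ext1 x
  change π (coc g⁻¹ x)⁻¹ * (a (g⁻¹ • x) • (1 : H →L[ℂ] H) * π (coc g⁻¹ x)) = _
  simp

end Crest.Agent.N111.B
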