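import Crest.Agent.N111.B.Two

/-!
# Row 111, module B: the ping-pong pair (`PPStmt`).
-/

set_option autoImplicit false

namespace Crest.Agent.N111.B

open MeasureTheory Topology Filter
open scoped ENNReal InnerProductSpace

lemma card_le_three {p : ℝ} (hp : p ≠ 0) (q : ℝ) (F : Finset ℕ)
    (h : ∀ r ∈ F, |q + r * p| ≤ |p|) : F.card ≤ 3 := by
  have h3 : (Finset.Icc ⌈-1 - q / p⌉ (⌈-1 - q / p⌉ + 2)).card = 3 := by simp; omega
  rw [← h3]
  refine Finset.card_le_card_of_injOn (fun r : ℕ => (r : ℤ)) (fun r hr => ?_)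
    fun _ _ _ _ h => Nat.cast_injective (R := ℤ) h
  have h1 : |q / p + r| ≤ 1 := by
    have e : q / p + r = (q + r * p) / p := by field_simp
    rw [e, abs_div, div_le_one (abs_pos.2 hp)]
    exact h r hr
  obtain ⟨h2, h4⟩ := abs_le.1 h1
  simp only [Finset.coe_Icc, Set.mem_Icc]
  refine ⟨Int.ceil_le.2 (by push_cast; linarith), ?_⟩
  have := Int.le_ceil (-1 - q / p)
  have : ((r : ℤ) : ℝ) ≤ ((⌈-1 - q / p⌉ + 2 : ℤ) : ℝ) := by push_cast; linarith
  exact_mod_cast this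

variable {H : Type} [NormedAddCommGroup H] [InnerProductSpace ℂ H] [CompleteSpace H]

/-- the slices of a subset of `G` -/
def sl (O : Set G) (γ : Γ) : Set X := {x | sec x * ι γ ∈ O}

lemma measurableSet_sl {O : Set G} (hO : MeasurableSet O) (γ : Γ) : MeasurableSet (sl O γ) :=
  (measurable_sec.mul_const _) hO

/-- the rows of the covariant POVM on `G` -/
noncomputable def rw (π : URep Γ H) (d : H →L[ℂ] H) (O : Set G) (γ : Γ) : L2X H →L[ℂ] L2X H :=
  mul1 H (sl O γ) * amp (d * π γ⁻¹)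

variable {π : URep Γ H} {d : H →L[ℂ] H}

omit [CompleteSpace H] in
lemma rw_coeFn {O : Set G} (hO : MeasurableSet O) (γ : Γ) (η : L2X H) [DecidablePred (· ∈ O)] :
    ∀ᵐ x ∂μ, ‖rw π d O γ η x‖ ^ 2 = if sec x * ι γ ∈ O then ‖d (π γ⁻¹ (η x))‖ ^ 2 else 0 := by
  filter_upwards [mul1_coeFn (measurableSet_sl hO γ) (amp (d * π γ⁻¹) η),
    amp_coeFn (d * π γ⁻¹) η] with x h1 h2
  rw [rw, mul_apply_eq_comp, h1]
  split_ifs with hx
  · rw [Set.indicator_of_mem (by exact hx), h2, mul_apply_eq_comp]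
  · rw [Set.indicator_of_notMem (by exact hx)]; simp

omit [CompleteSpace H] in
theorem rw_bound (hd : ∀ v, HasSum (fun γ => ‖d (π γ⁻¹ v)‖ ^ 2) (‖v‖ ^ 2)) {O : Set G}
    (hO : MeasurableSet O) {g : ℕ → G} {B : ℕ}
    (hB : ∀ᵐ k ∂m, ∀ F : Finset ℕ, (∀ r ∈ F, g r * k ∈ O) → F.card ≤ B) (n : Finset ℕ) (η : L2X H)
    (F : Finset Γ) : ∑ γ ∈ F, ∑ r ∈ n, ‖rw π d O γ (ind π (g r) η)‖ ^ 2 ≤ B * ‖η‖ ^ 2 := by
  classical
  have e : ∀ (u : G) (ζ : L2X H), ‖ζ‖ = ‖tr H u⁻¹ ζ‖ := fun u ζ => by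
    rw [← ind_triv, URep.norm_map]
  have h1 : ∀ (γ : Γ) (u : G), ∀ᵐ x ∂μ, ‖tr H u⁻¹ (rw π d O γ (ind π u η)) x‖ ^ 2
      = if u * (sec x * ι ((coc u x)⁻¹ * γ)) ∈ O then
        ‖d (π ((coc u x)⁻¹ * γ)⁻¹ (η x))‖ ^ 2 else 0 := fun γ u => by
    filter_upwards [tr_coeFn u⁻¹ (rw π d O γ (ind π u η)), ae_smul u (rw_coeFn hO γ (ind π u η)),
      ind_coeFn' π u η] with x h1 h2 h3
    rw [h1, inv_inv, h2, h3, ← mul_assoc, mul_sec, mul_assoc, ← map_mul, ← π.mul_apply]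
    simp
  rw [← Finset.sum_product']
  simp only [fun p : Γ × ℕ => e (g p.2) (rw π d O p.1 (ind π (g p.2) η))]
  refine sum_norm_sq_le_of_ae _ ?_
  filter_upwards [ae_all_iff.2 fun γ => ae_all_iff.2 fun r => h1 γ (g r),
    ae_all_iff.2 (ae_pr_iff.1 hB)] with x h2 h3
  simp only [h2]
  let φ : ℕ → Γ → ℝ := fun r δ => if g r * (sec x * ι δ) ∈ O then ‖d (π δ⁻¹ (η x))‖ ^ 2 else 0
  have hφ : ∀ r δ, 0 ≤ φ r δ := fun r δ => by simp only [φ]; split_ifs <;> positivity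
  let F' := n.biUnion fun r => F.image fun γ => (coc (g r) x)⁻¹ * γ
  calc ∑ p ∈ F ×ˢ n, φ p.2 ((coc (g p.2) x)⁻¹ * p.1)
      = ∑ r ∈ n, ∑ δ ∈ F.image fun γ => (coc (g r) x)⁻¹ * γ, φ r δ := by
        rw [Finset.sum_product_right]
        exact Finset.sum_congr rfl fun r _ =>
          (Finset.sum_image (f := φ r) (g := fun γ => (coc (g r) x)⁻¹ * γ)
            fun _ _ _ _ h => mul_left_cancel h).symm
    _ ≤ ∑ r ∈ n, ∑ δ ∈ F', φ r δ := Finset.sum_le_sum fun r hr =>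
        Finset.sum_le_sum_of_subset_of_nonneg (Finset.subset_biUnion_of_mem
          (fun r => F.image fun γ => (coc (g r) x)⁻¹ * γ) hr)
          fun _ _ _ => hφ _ _
    _ ≤ ∑ δ ∈ F', B * ‖d (π δ⁻¹ (η x))‖ ^ 2 := by
        rw [Finset.sum_comm]
        refine Finset.sum_le_sum fun δ _ => ?_
        simp only [φ]
        rw [← Finset.sum_filter, Finset.sum_const, nsmul_eq_mul]
        gcongr
        exact h3 δ _ fun r hr => (Finset.mem_filter.1 hr).2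
    _ ≤ B * ‖η x‖ ^ 2 := by
        rw [← Finset.mul_sum]
        gcongr
        exact sum_le_hasSum _ (fun _ _ => sq_nonneg _) (hd _)

omit [CompleteSpace H] in
theorem rw_add (hd : ∀ v, HasSum (fun γ => ‖d (π γ⁻¹ v)‖ ^ 2) (‖v‖ ^ 2)) {O : Set G}
    (hO : MeasurableSet O) (η : L2X H) :
    HasSum (fun γ => ‖rw π d O γ η‖ ^ 2 + ‖rw π d Oᶜ γ η‖ ^ 2) (‖η‖ ^ 2) := by
  classical
  have h1 : HasSum (fun γ => ‖amp (d * π γ⁻¹) η‖ ^ 2) (‖η‖ ^ 2) := by
    refine hasSum_norm_sq_of_ae ?_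
    filter_upwards [ae_all_iff.2 fun γ => amp_coeFn (d * π γ⁻¹) η] with x hx
    simpa only [hx, mul_apply_eq_comp] using hd (η x)
  convert h1 using 2 with γ
  simp only [norm_sq_eq_integral]
  rw [← integral_add (integrable_norm_sq _) (integrable_norm_sq _)]
  refine integral_congr_ae ?_
  filter_upwards [rw_coeFn hO γ η, rw_coeFn hO.compl γ η, amp_coeFn (d * π γ⁻¹) η] with x h1 h2 h3
  rw [h1, h2, h3]
  by_cases hx : sec x * ι γ ∈ O <;> simp [hx]

theorem sum_conj_le {U : URep G (L2X H)} {a : L2X H →L[ℂ] L2X H} (ha : 0 ≤ a) {g : ℕ → G}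
    {n : Finset ℕ} {B : ℝ} (h : ∀ η, ∑ r ∈ n, ‖a (U (g r) η)‖ ^ 2 ≤ B * ‖η‖ ^ 2) :
    ∑ r ∈ n, U (g r)⁻¹ * (a * a) * U (g r) ≤ (B : ℂ) • (1 : L2X H →L[ℂ] L2X H) := by
  refine le_smul_one ?_ fun η => le_of_eq_of_le ?_ (h η)
  · simp only [star_sum, star_mul, URep.star_apply, inv_inv, sa_of_nonneg ha, mul_assoc]
  · rw [sum_apply, inner_sum, Complex.re_sum]
    refine Finset.sum_congr rfl fun r _ => ?_
    rw [mul_apply_eq_comp, mul_apply_eq_comp (U _), ← U.inner_left, re_inner_sq (sa_of_nonneg ha),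
      Complex.ofReal_re]

theorem ppStmt : PPStmt := fun κ H _ _ _ _ _ S i j₀ I h => by
  obtain ⟨d, hdR, hd⟩ := exists_frame h.hj
  have key : ∀ O : Set G, MeasurableSet O → ∃ a : L2X H →L[ℂ] L2X H, 0 ≤ a ∧ a * a ∈ I.N ∧
      ∀ η, HasSum (fun γ => ‖rw S.π d O γ η‖ ^ 2) (‖a η‖ ^ 2) := fun O hO => by
    obtain ⟨a, ha0, ha⟩ := exists_sqrt_rows (rw S.π d O) (C := 1) fun η F => by
      rw [one_mul]
      exact (Finset.sum_le_sum fun γ _ => le_add_of_nonneg_right (sq_nonneg _)).trans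
        (sum_le_hasSum F (fun _ _ => by positivity) (rw_add hd hO η))
    have hc : ∀ c ∈ Cs S i, ∀ γ η, rw S.π d O γ (c η) = c (rw S.π d O γ η) := by
      rintro _ ⟨b, hb, g, hg, rfl⟩ γ η
      have hA := bm_indicator (measurableSet_sl hO γ)
      have : Commute (rw S.π d O γ) (mulf H b * amp (S.R g)) := by
        refine Commute.mul_left (Commute.mul_right (mulf_fld hA (bm_isFld hb)) (mulf_amp hA _))
          (Commute.mul_right (mulf_amp hb _).symm (amp_comm ((hdR g hg).mul_left (S.comm _ _))))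
      exact congrArg (fun T : L2X H →L[ℂ] L2X H => T η) this.eq
    refine ⟨a, ha0, ?_, ha⟩
    rw [N_eq h]
    intro c hc'
    have := commute_of_rows ha0 ha (hc c hc') (hc _ (star_mem_C hc'))
    exact (this.mul_left this).symm.eq
  have hO : MeasurableSet {k : G | |k 2 0| ≤ |k 1 0|} :=
    measurableSet_le (by fun_prop) (by fun_prop)
  obtain ⟨a, ha0, haN, ha⟩ := key _ hO
  obtain ⟨b, hb0, hbN, hb⟩ := key _ hO.compl
  have hsq : ∀ c : L2X H →L[ℂ] L2X H, 0 ≤ c → 0 ≤ c * c := fun c hc => by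
    nth_rw 1 [← sa_of_nonneg hc]
    exact star_mul_self_nonneg _
  have hne : ∀ k l, ∀ᵐ g : G ∂m, g k l ≠ 0 := fun k l => by
    rw [ae_iff]; simpa using m_entry_eq_zero k l
  refine ⟨_, haN, _, hbN, (3 : ℕ), hsq a ha0, hsq b hb0, eq_of_inner_self fun η => ?_,
    fun n => ⟨?_, ?_⟩⟩
  · rw [add_apply, inner_add_right, re_inner_sq (sa_of_nonneg ha0), re_inner_sq (sa_of_nonneg hb0),
      ← Complex.ofReal_add, ((ha η).add (hb η)).unique (rw_add hd hO η), one_apply_eq_self,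
      inner_self_c]
  · rw [h.U]
    refine sum_conj_le ha0 fun η => hasSum_le_of_sum_le (hasSum_sum fun r _ => ha _) ?_
    refine rw_bound hd hO ((hne 1 0).mono fun k hk F hF => card_le_three hk (k 2 0) F
      fun r hr => ?_) _ η
    simpa [tv_mul_apply] using hF r hr
  · rw [h.U]
    refine sum_conj_le hb0 fun η => hasSum_le_of_sum_le (hasSum_sum fun r _ => hb _) ?_
    refine rw_bound hd hO.compl ((hne 2 0).mono fun k hk F hF => card_le_three hk (k 1 0) F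
      fun r hr => le_of_lt ?_) _ η
    simpa [tv_mul_apply] using hF r hr

end Crest.Agent.N111.B
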