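import Crest.Agent.N111.B.Loc

/-!
# Row 111, module B: square roots of sums of squares of operators.
-/

set_option autoImplicit false

namespace Crest.Agent.N111.B

open MeasureTheory Topology Filter
open scoped ENNReal InnerProductSpace

variable {H H' H'' : Type*} [NormedAddCommGroup H] [InnerProductSpace ℂ H]
  [NormedAddCommGroup H'] [InnerProductSpace ℂ H'] [NormedAddCommGroup H''] [InnerProductSpace ℂ H'']

theorem exists_rows {κ : Type*} (T : κ → H →L[ℂ] H') {C : ℝ}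
    (h : ∀ η (F : Finset κ), ∑ k ∈ F, ‖T k η‖ ^ 2 ≤ C * ‖η‖ ^ 2) :
    ∃ S : H →L[ℂ] lp (fun _ : κ => H') 2, ∀ η k, S η k = T k η := by
  have hm : ∀ η, Memℓp (fun k => T k η) 2 := fun η =>
    memℓp_gen' (C := C * ‖η‖ ^ 2) fun s => by simpa using h η s
  let S : H →ₗ[ℂ] lp (fun _ : κ => H') 2 :=
    { toFun := fun η => ⟨fun k => T k η, hm η⟩
      map_add' := fun a b => lp.ext (funext fun k => map_add (T k) a b)
      map_smul' := fun c a => lp.ext (funext fun k => map_smul (T k) c a) }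
  refine ⟨S.mkContinuous (Real.sqrt (max C 0)) fun η => ?_, fun _ _ => rfl⟩
  refine lp.norm_le_of_forall_sum_le (by norm_num) (by positivity) fun s => ?_
  have e : (2 : ℝ≥0∞).toReal = ((2 : ℕ) : ℝ) := by norm_num
  simp only [e, Real.rpow_natCast, mul_pow, Real.sq_sqrt (le_max_right C 0)]
  exact (h η s).trans (by gcongr; exact le_max_left _ _)

lemma inner_self_c (η : H) : ⟪η, η⟫_ℂ = ((‖η‖ ^ 2 : ℝ) : ℂ) := by
  rw [inner_self_eq_norm_sq_to_K]; norm_cast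

lemma re_inner_sq [CompleteSpace H] {a : H →L[ℂ] H} (ha : star a = a) (η : H) :
    ⟪η, (a * a) η⟫_ℂ = ((‖a η‖ ^ 2 : ℝ) : ℂ) := by
  rw [mul_apply_eq_comp, ← ContinuousLinearMap.adjoint_inner_left,
    ← ContinuousLinearMap.star_eq_adjoint, ha, inner_self_c]

lemma sa_of_nonneg [CompleteSpace H] {a : H →L[ℂ] H} (ha : 0 ≤ a) : star a = a :=
  IsSelfAdjoint.of_nonneg ha

lemma inner_sa [CompleteSpace H] {a : H →L[ℂ] H} (ha : star a = a) (η ζ : H) :
    ⟪a η, ζ⟫_ℂ = ⟪η, a ζ⟫_ℂ := by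
  rw [← ContinuousLinearMap.adjoint_inner_left, ← ContinuousLinearMap.star_eq_adjoint, ha]

/-- the square root of `∑ Tₖ* Tₖ` -/
theorem exists_sqrt_rows [CompleteSpace H] [CompleteSpace H'] {κ : Type*} (T : κ → H →L[ℂ] H')
    {C : ℝ} (h : ∀ η (F : Finset κ), ∑ k ∈ F, ‖T k η‖ ^ 2 ≤ C * ‖η‖ ^ 2) :
    ∃ a : H →L[ℂ] H, 0 ≤ a ∧ ∀ η, HasSum (fun k => ‖T k η‖ ^ 2) (‖a η‖ ^ 2) := by
  obtain ⟨S, hS⟩ := exists_rows T h
  have h0 : 0 ≤ ContinuousLinearMap.adjoint S ∘L S :=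
    (ContinuousLinearMap.nonneg_iff_isPositive _).2
      (ContinuousLinearMap.isPositive_adjoint_comp_self S)
  refine ⟨CFC.sqrt (ContinuousLinearMap.adjoint S ∘L S), CFC.sqrt_nonneg _, fun η => ?_⟩
  have h1 := re_inner_sq (sa_of_nonneg (CFC.sqrt_nonneg (ContinuousLinearMap.adjoint S ∘L S))) η
  rw [CFC.sqrt_mul_sqrt_self _ h0, ContinuousLinearMap.comp_apply,
    ContinuousLinearMap.adjoint_inner_right, inner_self_c] at h1
  have h2 := Complex.ofReal_injective h1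
  have h3 := lp.hasSum_norm (p := 2) (by norm_num) (S η)
  have e : (2 : ℝ≥0∞).toReal = ((2 : ℕ) : ℝ) := by norm_num
  simp only [e, Real.rpow_natCast, hS] at h3
  rwa [← h2]

/-- polarisation -/
theorem hasSum_inner {κ : Type*} {T : κ → H →L[ℂ] H'} {a : H →L[ℂ] H''}
    (h : ∀ η, HasSum (fun k => ‖T k η‖ ^ 2) (‖a η‖ ^ 2)) (η ζ : H) :
    HasSum (fun k => ⟪T k η, T k ζ⟫_ℂ) ⟪a η, a ζ⟫_ℂ := by
  have h' : ∀ η, HasSum (fun k => ((‖T k η‖ : ℂ)) ^ 2) ((‖a η‖ : ℂ) ^ 2) := fun η => by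
    exact_mod_cast Complex.hasSum_ofReal.2 (h η)
  have := (((h' (η + ζ)).sub (h' (η - ζ))).add
    (((h' (η - Complex.I • ζ)).sub (h' (η + Complex.I • ζ))).mul_right Complex.I)).div_const 4
  simp only [map_add, map_sub, map_smul] at this
  simp only [inner_eq_sum_norm_sq_div_four]
  exact this

theorem commute_of_sq [CompleteSpace H] {a c : H →L[ℂ] H} (ha : 0 ≤ a) (h : Commute (a * a) c) :
    Commute a c := by
  rw [← CFC.sqrt_mul_self a ha]
  exact h.cfcₙ_nnreal _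

theorem commute_of_rows [CompleteSpace H] [CompleteSpace H'] {κ : Type*} {T : κ → H →L[ℂ] H'}
    {a c : H →L[ℂ] H} (ha : 0 ≤ a) (h : ∀ η, HasSum (fun k => ‖T k η‖ ^ 2) (‖a η‖ ^ 2))
    {c' : H' →L[ℂ] H'} (h1 : ∀ k η, T k (c η) = c' (T k η))
    (h2 : ∀ k η, T k (star c η) = star c' (T k η)) : Commute a c := by
  refine commute_of_sq ha ?_
  ext ζ
  refine ext_inner_left ℂ fun η => ?_
  have e1 := hasSum_inner h η (c ζ)
  have e2 := hasSum_inner h (star c η) ζ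
  simp only [h1, h2, ContinuousLinearMap.star_eq_adjoint c',
    ContinuousLinearMap.adjoint_inner_left] at e1 e2
  have e3 := e1.unique e2
  rw [inner_sa (sa_of_nonneg ha), inner_sa (sa_of_nonneg ha), ContinuousLinearMap.star_eq_adjoint,
    ContinuousLinearMap.adjoint_inner_left] at e3
  exact e3

theorem commute_of_norm [CompleteSpace H] {K : Type*} [Group K] (ρ : URep K H) (g : K)
    {a : H →L[ℂ] H} (ha : 0 ≤ a) (h : ∀ η, ‖a (ρ g η)‖ = ‖a η‖) : Commute a (ρ g) := by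
  refine commute_of_sq ha ?_
  have e : ρ g⁻¹ * (a * a) * ρ g = a * a := by
    rw [← sub_eq_zero, ← ContinuousLinearMap.coe_inj]
    refine (inner_map_self_eq_zero _).1 fun η => ?_
    rw [inner_eq_zero_symm]
    change ⟪η, ρ g⁻¹ ((a * a) (ρ g η)) - (a * a) η⟫_ℂ = 0
    rw [inner_sub_right, ← ρ.inner_left, re_inner_sq (sa_of_nonneg ha),
      re_inner_sq (sa_of_nonneg ha), h, sub_self]
  change a * a * ρ g = ρ g * (a * a)
  conv_rhs => rw [← e]
  simp only [← mul_assoc, URep.mul_inv_self, one_mul]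

theorem eq_of_inner_self {S T : H →L[ℂ] H} (h : ∀ η, ⟪η, S η⟫_ℂ = ⟪η, T η⟫_ℂ) : S = T := by
  rw [← sub_eq_zero, ← ContinuousLinearMap.coe_inj]
  refine (inner_map_self_eq_zero _).1 fun η => ?_
  rw [inner_eq_zero_symm]
  change ⟪η, S η - T η⟫_ℂ = 0
  rw [inner_sub_right, h, sub_self]

theorem le_smul_one [CompleteSpace H] {T : H →L[ℂ] H} (hT : star T = T) {B : ℝ}
    (h : ∀ η, (⟪η, T η⟫_ℂ).re ≤ B * ‖η‖ ^ 2) : T ≤ (B : ℂ) • (1 : H →L[ℂ] H) := by
  rw [ContinuousLinearMap.le_def, ContinuousLinearMap.isPositive_def']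
  refine ⟨?_, fun η => ?_⟩
  · change star _ = _
    rw [star_sub, hT, star_smul, star_one, Complex.star_def, Complex.conj_ofReal]
  · rw [ContinuousLinearMap.reApplyInnerSelf_apply, inner_re_symm]
    change 0 ≤ (⟪η, (B : ℂ) • η - T η⟫_ℂ).re
    rw [inner_sub_right, inner_smul_right, inner_self_c, Complex.sub_re, sub_nonneg, ← Complex.ofReal_mul,
      Complex.ofReal_re]
    exact h η

theorem denseRange_of_inj [CompleteSpace H] {a : H →L[ℂ] H} (ha : star a = a)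
    (h : ∀ ξ, a ξ = 0 → ξ = 0) : DenseRange a := by
  have : (a.range).topologicalClosure = ⊤ := by
    rw [Submodule.topologicalClosure_eq_top_iff, eq_bot_iff]
    intro ξ hξ
    refine h ξ (ext_inner_left ℂ fun η => ?_)
    rw [← inner_sa ha, inner_zero_right]
    exact hξ _ ⟨η, rfl⟩
  exact (Submodule.dense_iff_topologicalClosure_eq_top.2 this : _)

/-- Douglas factorisation -/
theorem exists_douglas [CompleteSpace H'] {a : H →L[ℂ] H} (ha : DenseRange a) {s : H →L[ℂ] H'}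
    (h : ∀ v, ‖s v‖ ≤ ‖a v‖) : ∃ d : H →L[ℂ] H', ∀ v, d (a v) = s v :=
  ⟨(s : H →ₗ[ℂ] H').extendOfNorm (a : H →ₗ[ℂ] H), fun v =>
    LinearMap.extendOfNorm_eq ha ⟨1, by simpa using h⟩ v⟩

end Crest.Agent.N111.B
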