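import Crest.Agent.N111.B.Rows

/-!
# Row 111, module B: the position operator `j₀` of a setting.
-/

set_option autoImplicit false

namespace Crest.Agent.N111.B

open MeasureTheory Topology Filter
open scoped ENNReal InnerProductSpace

variable {κ H : Type} [Fintype κ] [DecidableEq κ] [NormedAddCommGroup H] [InnerProductSpace ℂ H]
  [CompleteSpace H] {S : Setting κ H} {i : κ} {j₀ : H →L[ℂ] H}

/-- the other legs -/
abbrev Gi (i : κ) : Type := {g : κ → Γ // g i = 1}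

/-- leg `i` -/
abbrev ms (i : κ) (μ : Γ) : κ → Γ := Pi.mulSingle i μ

omit [Fintype κ] in
lemma ms_inv (μ : Γ) : ms i μ⁻¹ = (ms i μ)⁻¹ := Pi.mulSingle_inv (f := fun _ => Γ) i μ

omit [Fintype κ] in
lemma ms_mul (μ ν : Γ) : ms i (μ * ν) = ms i μ * ms i ν :=
  Pi.mulSingle_mul (f := fun _ => Γ) i μ ν

omit [Fintype κ] in
lemma ms_comm {g : κ → Γ} (hg : g i = 1) (μ : Γ) : g * ms i μ = ms i μ * g := by
  ext1 k
  by_cases h : k = i
  · subst h; simp [hg]
  · simp [h]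

omit [Fintype κ] in
lemma eq_mul_ms (i : κ) (g : κ → Γ) : g = Function.update g i 1 * ms i (g i) := by
  ext1 k
  by_cases h : k = i
  · subst h; simp
  · simp [h]

/-- splitting off leg `i` -/
def split (i : κ) : Γ × Gi i ≃ (κ → Γ) where
  toFun p := ms i p.1 * p.2
  invFun g := (g i, ⟨Function.update g i 1, by simp⟩)
  left_inv p := by
    refine Prod.ext (by simp [p.2.2]) (Subtype.ext ?_)
    ext1 k
    by_cases h : k = i
    · subst h; simp [p.2.2]
    · simp [h]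
  right_inv g := by
    conv_rhs => rw [eq_mul_ms i g, ms_comm (by simp)]

theorem exists_isJ (S : Setting κ H) (i : κ) : ∃ j₀, S.IsJ i j₀ := by
  refine exists_sqrt_rows (fun g : Gi i => innerSL ℂ (S.R g S.ξ)) (C := 1) fun η F => ?_
  have := sum_le_hasSum (F.map (Function.Embedding.subtype _)) (fun _ _ => sq_nonneg _) (S.pars η)
  simpa using this

lemma J_sa (hj : S.IsJ i j₀) : star j₀ = j₀ := sa_of_nonneg hj.1

lemma J_eq (hj : S.IsJ i j₀) (e : Gi i ≃ Gi i) {v w : H}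
    (h : ∀ g, ‖⟪S.R (e g) S.ξ, v⟫_ℂ‖ = ‖⟪S.R g S.ξ, w⟫_ℂ‖) : ‖j₀ v‖ = ‖j₀ w‖ := by
  have h1 := e.hasSum_iff.2 (hj.2 v)
  simp only [Function.comp_def, h] at h1
  exact (sq_eq_sq₀ (norm_nonneg _) (norm_nonneg _)).1 (h1.unique (hj.2 w))

lemma J_eq_zero (hj : S.IsJ i j₀) {v : H} (h : ∀ g, g i = 1 → ⟪S.R g S.ξ, v⟫_ℂ = 0) :
    j₀ v = 0 := by
  have h1 := hj.2 v
  simp only [fun g : Gi i => h g g.2, norm_zero, ne_eq, OfNat.ofNat_ne_zero, not_false_eq_true,
    zero_pow] at h1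
  simpa using h1.unique hasSum_zero

theorem J_comm (hj : S.IsJ i j₀) {h : κ → Γ} (hh : h i = 1) : Commute j₀ (S.R h) :=
  commute_of_norm S.R h hj.1 fun η =>
    J_eq hj ((Equiv.mulLeft h).subtypeEquiv fun g => by simp [hh]) fun g => by
      simp

theorem J_pars (hj : S.IsJ i j₀) (v : H) :
    HasSum (fun μ => ‖j₀ (S.R (ms i μ⁻¹) v)‖ ^ 2) (‖v‖ ^ 2) := by
  refine ((split i).hasSum_iff.2 (S.pars v)).prod_fiberwise fun μ => ?_
  have := hj.2 (S.R (ms i μ⁻¹) v)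
  simp only [ms_inv, ← URep.inner_left, ← URep.mul_apply] at this ⊢
  exact this

theorem J_orth (hj : S.IsJ i j₀) {γ : Γ} (hγ : γ ≠ 1) (v : H) : j₀ (S.π γ (j₀ v)) = 0 := by
  refine J_eq_zero hj fun g hg => ?_
  rw [S.π.inner_right, ← inner_sa (J_sa hj), J_eq_zero hj, inner_zero_left]
  intro k hk
  rw [S.R.inner_left, ← mul_apply_eq_comp, ← (S.comm _ _).eq, mul_apply_eq_comp, ← S.R.mul_apply]
  exact S.orth i _ _ (by simp [hk, hg]) fun h => hγ (inv_eq_one.1 h.1)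

theorem J_bessel (hj : S.IsJ i j₀) (z : H) (F : Finset Γ) :
    ∑ γ ∈ F, ‖j₀ (S.π γ⁻¹ z)‖ ^ 2 ≤ ‖j₀‖ ^ 2 * ‖z‖ ^ 2 := by
  refine sum_rows_le F (fun γ => j₀ * S.π γ⁻¹) (fun γ => ?_) (fun γ _ δ _ h => ?_) z
  · exact (norm_mul_le _ _).trans (mul_le_of_le_one_right (norm_nonneg _) (S.π.norm_le _))
  · ext v
    rw [← ContinuousLinearMap.star_eq_adjoint, star_mul, URep.star_apply, J_sa hj, inv_inv]
    change j₀ (S.π γ⁻¹ (S.π δ (j₀ v))) = 0
    rw [← S.π.mul_apply]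
    exact J_orth hj (by rwa [Ne, inv_mul_eq_one]) v

theorem eq_zero_of_inner (S : Setting κ H) {v : H} (h : ∀ g, ⟪S.R g S.ξ, v⟫_ℂ = 0) : v = 0 := by
  have h1 := S.pars v
  simp only [h, norm_zero, ne_eq, OfNat.ofNat_ne_zero, not_false_eq_true, zero_pow] at h1
  simpa using h1.unique hasSum_zero

theorem ext_R (S : Setting κ H) {A B : H →L[ℂ] H} (h : ∀ g, A (S.R g S.ξ) = B (S.R g S.ξ)) :
    A = B := by
  have : star (A - B) = 0 := by
    ext v
    refine eq_zero_of_inner S fun g => ?_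
    rw [ContinuousLinearMap.star_eq_adjoint, ContinuousLinearMap.adjoint_inner_right, sub_apply, h,
      sub_self, inner_zero_left]
  rwa [star_eq_zero, sub_eq_zero] at this

/-- a `π`-Parseval frame operator commuting with the other legs -/
theorem exists_frame (hj : S.IsJ i j₀) : ∃ d : H →L[ℂ] H, (∀ g, g i = 1 → Commute d (S.R g)) ∧
    ∀ v, HasSum (fun γ => ‖d (S.π γ⁻¹ v)‖ ^ 2) (‖v‖ ^ 2) := by
  obtain ⟨c, hc0, hc⟩ := (Set.countable_univ (α := Γ)).exists_pos_forall_sum_le one_pos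
  let T : Γ → H →L[ℂ] H := fun μ => (Real.sqrt (c μ) : ℂ) • (j₀ * S.R (ms i μ⁻¹))
  have hT : ∀ μ v, ‖T μ v‖ ^ 2 = c μ * ‖j₀ (S.R (ms i μ⁻¹) v)‖ ^ 2 := fun μ v => by
    simp only [T, smul_apply, norm_smul, mul_pow, Complex.norm_real, Real.norm_eq_abs, sq_abs,
      Real.sq_sqrt (hc0 μ).le, mul_apply_eq_comp]
  have hb : ∀ (f : Γ → ℝ) (B : ℝ), 0 ≤ B → (∀ μ, f μ ≤ B) → ∀ F : Finset Γ,
      ∑ μ ∈ F, c μ * f μ ≤ B := fun f B hB hf F => by
    calc ∑ μ ∈ F, c μ * f μ ≤ ∑ μ ∈ F, c μ * B := by gcongr with μ; exacts [(hc0 μ).le, hf μ]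
      _ ≤ B := by
        rw [← Finset.sum_mul]
        exact mul_le_of_le_one_left hB (hc F (Set.subset_univ _))
  obtain ⟨s, hs0, hs⟩ := exists_sqrt_rows T (C := ‖j₀‖ ^ 2) fun v F => by
    simp only [hT]
    refine hb _ _ (by positivity) (fun μ => ?_) F
    rw [← mul_pow, ← S.R.norm_map (ms i μ⁻¹) v]
    gcongr
    exact j₀.le_opNorm _
  have hsR : ∀ g, g i = 1 → Commute s (S.R g) := fun g hg =>
    commute_of_norm S.R g hs0 fun v => by
      refine (sq_eq_sq₀ (norm_nonneg _) (norm_nonneg _)).1 ((hs _).unique ?_)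
      convert hs v using 2 with μ
      rw [hT, hT, ← S.R.mul_apply, ← ms_comm hg, S.R.mul_apply, ← mul_apply_eq_comp,
        (J_comm hj hg).eq, mul_apply_eq_comp, S.R.norm_map]
  have hsB : ∀ v (F : Finset Γ), ∑ γ ∈ F, ‖(s * S.π γ⁻¹) v‖ ^ 2 ≤ ‖j₀‖ ^ 2 * ‖v‖ ^ 2 :=
    fun v F => by
      refine hasSum_le_of_sum_le (hasSum_sum fun γ (_ : γ ∈ F) => hs (S.π γ⁻¹ v)) fun F' => ?_
      simp only [hT, ← Finset.mul_sum]
      refine hb _ _ (by positivity) (fun μ => ?_) F'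
      have := J_bessel hj (S.R (ms i μ⁻¹) v) F
      rw [S.R.norm_map] at this
      refine le_of_eq_of_le (Finset.sum_congr rfl fun γ _ => ?_) this
      rw [← mul_apply_eq_comp (S.R _), ← (S.comm _ _).eq, mul_apply_eq_comp]
  obtain ⟨a, ha0, ha⟩ := exists_sqrt_rows (fun γ => s * S.π γ⁻¹) hsB
  have hle : ∀ v, ‖s v‖ ≤ ‖a v‖ := fun v => by
    refine (sq_le_sq₀ (norm_nonneg _) (norm_nonneg _)).1 ?_
    simpa using le_hasSum (ha v) 1 fun _ _ => sq_nonneg _
  have hd : DenseRange a := denseRange_of_inj (sa_of_nonneg ha0) fun v hv => by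
    have h1 : ‖s v‖ ^ 2 = 0 := by simpa [hv] using hle v
    have h2 : ∀ μ, ‖j₀ (S.R (ms i μ⁻¹) v)‖ ^ 2 = 0 := fun μ => by
      have := le_hasSum (hs v) μ fun _ _ => sq_nonneg _
      rw [hT, h1] at this
      exact le_antisymm (nonpos_of_mul_nonpos_right this (hc0 μ)) (sq_nonneg _)
    have h3 := J_pars hj v
    simp only [h2] at h3
    simpa using h3.unique hasSum_zero
  have haπ : ∀ γ, Commute a (S.π γ) := fun γ => commute_of_norm S.π γ ha0 fun v => by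
    refine (sq_eq_sq₀ (norm_nonneg _) (norm_nonneg _)).1
      (((Equiv.mulLeft γ).hasSum_iff.2 (ha _)).unique ?_)
    simpa [Function.comp_def, URep.mul_apply] using ha v
  have haR : ∀ g, g i = 1 → Commute a (S.R g) := fun g hg => commute_of_norm S.R g ha0 fun v => by
    refine (sq_eq_sq₀ (norm_nonneg _) (norm_nonneg _)).1 ((ha _).unique ?_)
    convert ha v using 2 with γ
    rw [← mul_apply_eq_comp, mul_assoc, (S.comm _ _).eq, ← mul_assoc, (hsR g hg).eq, mul_assoc,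
      mul_apply_eq_comp, S.R.norm_map]
  obtain ⟨d, hda⟩ := exists_douglas hd hle
  have hdπ : ∀ γ v, d (S.π γ (a v)) = s (S.π γ v) := fun γ v => by
    rw [← mul_apply_eq_comp (S.π γ), ← (haπ γ).eq, mul_apply_eq_comp, hda]
  obtain ⟨b, -, hb⟩ := exists_sqrt_rows (fun γ => d * S.π γ⁻¹) (C := 1) fun v F => by
    refine hd.induction_on v (isClosed_le (by fun_prop) (by fun_prop)) fun w => ?_
    simpa [hdπ] using sum_le_hasSum F (fun _ _ => sq_nonneg _) (ha w)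
  refine ⟨d, fun g hg => ?_, fun v => ?_⟩
  · refine ContinuousLinearMap.ext fun v => hd.induction_on v
      (isClosed_eq (by fun_prop) (by fun_prop)) fun w => ?_
    change d (S.R g (a w)) = S.R g (d (a w))
    rw [← mul_apply_eq_comp (S.R g), ← (haR g hg).eq, mul_apply_eq_comp, hda, hda,
      ← mul_apply_eq_comp s, (hsR g hg).eq, mul_apply_eq_comp]
  · have : ‖b v‖ ^ 2 = ‖v‖ ^ 2 := by
      refine hd.induction_on v (isClosed_eq (by fun_prop) (by fun_prop)) fun w => ?_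
      refine (hb _).unique ?_
      simpa [hdπ] using ha w
    exact this ▸ hb v

end Crest.Agent.N111.B
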