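import Crest.Agent.N111.B.Ind

/-!
# Row 111, module B: `TwoStmt`, `CoreIStmt`, `CoreIIStmt`.
-/

set_option autoImplicit false

namespace Crest.Agent.N111.B

open MeasureTheory Topology Filter
open scoped ENNReal InnerProductSpace

section
variable {κ H : Type} [Fintype κ] [DecidableEq κ] [NormedAddCommGroup H] [InnerProductSpace ℂ H]
  [CompleteSpace H] {S : Setting κ H} {i : κ} {j₀ : H →L[ℂ] H}

lemma N_eq {I : Ind (L2X H)} (h : S.IsInd i j₀ I) : I.N = (Cs S i).centralizer := by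
  rw [Ind.N, h.C, Cs]

theorem J_on (hj : S.IsJ i j₀) (hon : Orthonormal ℂ fun g => S.R g S.ξ) (g : κ → Γ) :
    j₀ (S.R g S.ξ) = if g i = 1 then S.R g S.ξ else 0 := by
  split_ifs with hg
  · have h1 : j₀ (j₀ (S.R g S.ξ)) = S.R g S.ξ := ext_inner_left ℂ fun η => by
      rw [← inner_sa (J_sa hj)]
      refine (hasSum_inner (T := fun k : Gi i => innerSL ℂ (S.R k S.ξ)) hj.2 η _).unique ?_
      convert hasSum_single (⟨g, hg⟩ : Gi i) fun k hk => ?_ using 1
      · simp only [innerSL_apply_apply, inner_self_c, hon.1 g]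
        simp
      · simp only [innerSL_apply_apply]
        rw [hon.2 (fun h => hk (Subtype.ext h)), inner_zero_right]
    have h2 := ((ContinuousLinearMap.nonneg_iff_isPositive _).1 hj.1).re_inner_nonneg_right
      (j₀ (S.R g S.ξ) - S.R g S.ξ)
    rw [map_sub, h1, ← neg_sub (j₀ _), inner_neg_right, map_neg, inner_self_eq_norm_sq] at h2
    rw [← sub_eq_zero, ← norm_eq_zero]
    nlinarith [norm_nonneg (j₀ (S.R g S.ξ) - S.R g S.ξ)]
  · exact J_eq_zero hj fun k hk => hon.2 fun h => hg (h ▸ hk)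

end

section
variable {H : Type} [NormedAddCommGroup H] [InnerProductSpace ℂ H] [CompleteSpace H]

theorem twoStmt : TwoStmt := fun H _ _ _ S s j₀ I hs h => by
  have hj := J_on h.hj hs.on
  have hsR : ∀ g, s (S.R g S.ξ) = S.R (g ∘ Equiv.swap 1 2) S.ξ := fun g => by
    rw [← hs.s_R, mul_apply_eq_comp, mul_apply_eq_comp, hs.s_ξ]
  have hsw : ∀ g : Fin 3 → Γ, (g ∘ Equiv.swap 1 2) ∘ Equiv.swap 1 2 = g := fun g => by
    ext1 k; simp
  have hj' : ∀ g, (s * j₀ * s) (S.R g S.ξ) = if g 2 = 1 then S.R g S.ξ else 0 := fun g => by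
    simp only [mul_apply_eq_comp, hsR, hj, Function.comp_apply, Equiv.swap_apply_left]
    split_ifs
    · rw [hsR, hsw]
    · rw [map_zero]
  refine ⟨by rw [star_amp, hs.s_sa], by rw [← amp_mul, hs.s_s, amp_one], fun g => ?_, fun g => ?_,
    by rw [h.ξ, amp_cst, hs.s_ξ], fun ν => ?_, ?_, ?_, fun ν hν => ?_, ?_⟩
  · rw [h.U]; exact (ind_comm_amp (fun γ => (hs.s_π γ).symm) g).symm
  · rw [h.y]; exact (yv_comm (fun γ => (hs.s_π γ).symm) g).symm
  · rw [h.ρ, h.C, ← amp_mul, ← amp_mul, hs.s_R]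
    exact amp_mem (by simp)
  · rw [h.C]
    rintro _ ⟨a, ha, g, hg, rfl⟩ ν
    set k := (g * ms 1 ν) ∘ Equiv.swap (1 : Fin 3) 2 with hk
    refine ⟨_, ⟨a, ha, Function.update k 1 1, by simp, rfl⟩, k 1, ?_⟩
    rw [h.ρ, h.ρ, mul_assoc (mulf H a), mul_assoc (mulf H a), ← amp_mul, ← amp_mul, ← map_mul,
      ← map_mul, ← eq_mul_ms, hk, ← hs.s_R, amp_mul, amp_mul, ← mul_assoc, ← (mulf_amp ha s).eq]
    simp only [mul_assoc]
  · rw [h.j, ← amp_mul]
    congr 1
    refine ext_R S fun g => ?_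
    simp only [mul_apply_eq_comp, hj]
    split_ifs with hg <;> simp [hj, hg]
  · rw [h.j, h.ρ, ← amp_mul, ← amp_mul]
    have : j₀ * S.R (Pi.mulSingle 1 ν) * j₀ = 0 := by
      refine ext_R S fun g => ?_
      simp only [mul_apply_eq_comp, hj]
      split_ifs with hg
      · rw [← URep.mul_apply, hj, if_neg (by simpa [hg] using hν), zero_apply]
      · simp
    rw [this]
    exact fld_zero
  · rw [h.j, ← amp_mul, ← amp_mul]
    refine amp_comm (ext_R S fun g => ?_)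
    rw [mul_apply_eq_comp j₀, mul_apply_eq_comp _ j₀, hj, hj']
    split_ifs with h1 h2 h2 <;> simp only [hj, hj', h1, h2, if_true, if_false, map_zero]

theorem coreIStmt : CoreIStmt := fun H _ _ _ S j₀ I P h hP => by
  have hL : Loc (P 1) := N_loc (N_eq h ▸ hP.mem 1)
  obtain ⟨η, hη⟩ : ∃ η, P 1 η ≠ 0 := by
    by_contra! h0
    exact hP.ne (ContinuousLinearMap.ext h0)
  have h1 : ∀ g : Unit → Γ, ∀ᵐ x ∂μ, g ≠ 1 → ⟪P 1 η x, S.R g (P 1 η x)⟫_ℂ = 0 := fun g => by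
    by_cases hg : g = 1
    · simp [hg]
    have e : P 1 (amp (S.R g) (P 1 η)) = 0 := by
      have := hP.wand 1 (g ()) fun h => hg (funext fun _ => h)
      rw [h.ρ] at this
      exact congrArg (fun T : L2X H →L[ℂ] L2X H => T η) this
    filter_upwards [hL.ae_adj η (amp (S.R g) (P 1 η)), amp_coeFn (S.R g) (P 1 η),
      Lp.coeFn_zero H 2 μ] with x h1 h2 h3 _
    rw [hP.sa, h2, e, h3, Pi.zero_apply, inner_zero_right] at h1
    exact h1.symm
  obtain ⟨v, hv0, hv⟩ : ∃ v : H, v ≠ 0 ∧ ∀ g, g ≠ 1 → ⟪v, S.R g v⟫_ℂ = 0 := by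
    by_contra! h0
    refine hη (Lp.ext ?_)
    filter_upwards [ae_all_iff.2 h1, Lp.coeFn_zero H 2 μ] with x h2 h3
    by_contra h4
    obtain ⟨g, hg, hg'⟩ := h0 _ (h3 ▸ h4)
    exact hg' (h2 g hg)
  have hn : (‖v‖ : ℂ) ≠ 0 := by simpa using hv0
  have hon : Orthonormal ℂ fun g : Unit → Γ => S.R g⁻¹ ((‖v‖ : ℂ)⁻¹ • v) := by
    refine ⟨fun g => by simp [norm_smul, hv0], fun g k hgk => ?_⟩
    simp only
    rw [S.R.inner_left, ← S.R.mul_apply, map_smul, inner_smul_left, inner_smul_right,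
      hv _ (by rwa [inv_inv, Ne, mul_inv_eq_one]), mul_zero, mul_zero]
  have h2 : ‖(‖v‖ : ℂ)⁻¹ • v‖ ^ 2 ≤ ‖S.ξ‖ ^ 2 := by
    refine hasSum_le_of_sum_le (S.pars _) fun F => ?_
    refine le_of_eq_of_le (Finset.sum_congr rfl fun g _ => ?_)
      (hon.sum_inner_products_le (s := F) S.ξ)
    rw [S.R.inner_left, norm_inner_symm]
  simpa [norm_smul, hv0] using (sq_le_sq₀ (norm_nonneg _) (norm_nonneg _)).1 h2

lemma inner_integral_av (T : L2X H →L[ℂ] L2X H) (v w : H) :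
    ∫ x, ⟪v, T (cst H w) x⟫_ℂ ∂μ = ⟪v, av T w⟫_ℂ := by rw [inner_av, inner_cst_left]

lemma integral_inner_av (T : L2X H →L[ℂ] L2X H) (v w : H) :
    ∫ x, ⟪T (cst H w) x, v⟫_ℂ ∂μ = ⟪av T w, v⟫_ℂ := by
  rw [← inner_conj_symm, ← inner_integral_av, ← integral_conj]
  simp only [inner_conj_symm]

lemma star_av (T : L2X H →L[ℂ] L2X H) : star (av T) = av (star T) := by
  simp only [av, ContinuousLinearMap.star_eq_adjoint, ContinuousLinearMap.adjoint_comp,
    ContinuousLinearMap.adjoint_adjoint, ContinuousLinearMap.comp_assoc]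

/-- commutation along all translates descends to the averages -/
theorem av_commute {π : URep Γ H} {P Q : L2X H →L[ℂ] L2X H} (hP : Loc P) (hQ : Loc Q)
    (hP' : star P = P) (hQ' : star Q = Q) (h : ∀ g, Commute P (ind π g * Q * ind π g⁻¹)) (γ : Γ) :
    Commute (av P) (π γ * av Q * π γ⁻¹) := by
  have hW : ∀ (g : G) (b : H), ∀ᵐ x ∂μ, (ind π g * Q * ind π g⁻¹) (cst H b) (g • x)
      = π (coc g x) (Q (cst H (π (coc g x)⁻¹ b)) x) := fun g b => by
    filter_upwards [ind_coeFn' π g (Q (ind π g⁻¹ (cst H b))),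
      hQ.ae_piece (c := fun x => (coc g⁻¹⁻¹ x)⁻¹) (by fun_prop) (v := fun δ => π δ b)
        (ind_cst_coeFn π g⁻¹ b)] with x h1 h2
    rw [mul_apply_eq_comp, mul_apply_eq_comp, h1, h2, inv_inv]
  ext b
  refine ext_inner_left ℂ fun a => ?_
  have h1 := unfold_ae (F := fun x x' δ => ⟪P (cst H a) x', π δ (Q (cst H (π δ⁻¹ b)) x)⟫_ℂ
      = ⟪π δ (Q (cst H (π δ⁻¹ a)) x), P (cst H b) x'⟫_ℂ) (fun δ => ?_) (fun g => ?_) γ
  · have h2 : ∀ᵐ x ∂μ, ⟪π γ⁻¹ (av P a), Q (cst H (π γ⁻¹ b)) x⟫_ℂ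
        = ⟪Q (cst H (π γ⁻¹ a)) x, π γ⁻¹ (av P b)⟫_ℂ := by
      filter_upwards [h1] with x hx
      rw [← π.inner_right, ← π.inner_left, ← integral_inner_av, ← inner_integral_av]
      exact integral_congr_ae hx
    have h3 := integral_congr_ae h2
    rw [integral_inner_av, inner_integral_av, ← π.inner_right,
      inner_sa (by rw [star_av, hP']), inner_sa (by rw [star_av, hQ']), ← π.inner_right] at h3
    exact h3
  · have m1 : ∀ ζ : L2X H, StronglyMeasurable fun p : X × X => ζ p.2 := fun ζ =>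
      (Lp.stronglyMeasurable _).comp_measurable measurable_snd
    have m2 : ∀ ζ : L2X H, StronglyMeasurable fun p : X × X => π δ (ζ p.1) := fun ζ =>
      (π δ).continuous.comp_stronglyMeasurable
        ((Lp.stronglyMeasurable _).comp_measurable measurable_fst)
    exact ((m1 _).inner (m2 _)).measurableSet_eq_fun ((m2 _).inner (m1 _))
  · have hW' : star (ind π g * Q * ind π g⁻¹) = ind π g * Q * ind π g⁻¹ := by
      simp only [star_mul, URep.star_apply, hQ', inv_inv, mul_assoc]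
    filter_upwards [hW g a, hW g b,
      ae_smul g (hP.ae_adj (cst H a) ((ind π g * Q * ind π g⁻¹) (cst H b))),
      ae_smul g ((hQ.conj π g).ae_adj (cst H a) (P (cst H b)))] with x h1 h2 h3 h4
    rw [hP'] at h3
    rw [hW'] at h4
    rw [← h1, ← h2, ← h3, ← h4, ← mul_apply_eq_comp P, (h g).eq, mul_apply_eq_comp _ P]

theorem coreIIStmt : CoreIIStmt := fun H _ _ _ S s j₀ I P hs h hP hc => by
  have hL : Loc (P 1) := N_loc (N_eq h ▸ hP.mem 1)
  have hin : ∀ η, ⟪η, P 1 η⟫_ℂ = ((‖P 1 η‖ ^ 2 : ℝ) : ℂ) := fun η => by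
    rw [← re_inner_sq (hP.sa 1), hP.idem]
  refine ⟨Set.range fun γ => S.π γ * av (P 1) * S.π γ⁻¹, ?_, ⟨_, ⟨1, rfl⟩, fun h0 => hP.ne ?_⟩,
    ?_, ?_, ?_, ?_⟩
  · rintro _ ⟨γ, rfl⟩
    have : 0 ≤ P 1 := by
      rw [← hP.idem]
      nth_rw 1 [← hP.sa]
      exact star_mul_self_nonneg _
    simp only [← S.π.star_apply]
    exact star_right_conjugate_nonneg (av_nonneg this) _
  · refine hL.ext_cst (fun _ _ _ => by simp) fun v => ?_
    have h1 := inner_av (P 1) v v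
    simp only [map_one, inv_one, one_mul, mul_one] at h0
    rw [h0, hin] at h1
    simpa using h1.symm
  · rintro _ ⟨δ, rfl⟩ γ
    exact ⟨γ * δ, by simp only [mul_inv_rev, map_mul, mul_assoc]⟩
  · rintro _ ⟨γ, rfl⟩ Z h1 h2 h3
    refine ((h1 _).mul_right (av_comm (hP.gen _ (fun g => ?_) (fun ν => ?_) ?_ 1))).mul_right (h1 _)
    · rw [h.U]; exact (ind_comm_amp (fun γ => (h1 γ).symm) g).symm
    · rw [h.ρ]; exact amp_comm (h2 ν)
    · rw [h.j]; exact amp_comm h3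
  · rintro _ ⟨γ, rfl⟩
    refine ⟨‖P 1‖ ^ 2, fun η F => ?_⟩
    have := sum_rows_le F (fun ν => P 1 * I.ρ ν) (C := ‖P 1‖) (fun ν =>
      (norm_mul_le _ _).trans (mul_le_of_le_one_right (norm_nonneg _) (I.ρ.norm_le _)))
      (fun ν _ ν' _ hne => ?_) (cst H (S.π γ⁻¹ η))
    · rw [norm_cst, URep.norm_map] at this
      refine le_of_eq_of_le (Finset.sum_congr rfl fun ν _ => ?_) this
      rw [mul_apply_eq_comp, mul_apply_eq_comp, S.π.inner_right, inner_av, hin, Complex.ofReal_re,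
        mul_apply_eq_comp, h.ρ, amp_cst, ← mul_apply_eq_comp (S.π _), (S.comm _ _).eq,
        mul_apply_eq_comp]
    · rw [← ContinuousLinearMap.star_eq_adjoint, star_mul, URep.star_apply, hP.sa]
      change P 1 * I.ρ ν * (I.ρ ν'⁻¹ * P 1) = 0
      rw [← hP.wand 1 (ν * ν'⁻¹) (by rwa [Ne, mul_inv_eq_one]), map_mul]
      simp only [mul_assoc]
  · rintro _ ⟨γ, rfl⟩ _ ⟨δ, rfl⟩
    have h1 := av_commute (π := S.π) hL (((loc_amp s).mul hL).mul (loc_amp s)) (hP.sa 1)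
      (by simp only [star_mul, star_amp, hs.s_sa, hP.sa, mul_assoc]) (fun g => ?_) (γ⁻¹ * δ)
    · have h2 : Commute (S.π γ * av (P 1) * S.π γ⁻¹) (S.π γ * (S.π (γ⁻¹ * δ)
          * av (amp s * P 1 * amp s) * S.π (γ⁻¹ * δ)⁻¹) * S.π γ⁻¹) := by
        have e : ∀ A B : H →L[ℂ] H, S.π γ * A * S.π γ⁻¹ * (S.π γ * B * S.π γ⁻¹)
            = S.π γ * (A * B) * S.π γ⁻¹ := fun A B => by
          simp only [mul_assoc]
          rw [← mul_assoc (S.π γ⁻¹), URep.inv_mul_self, one_mul]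
        change _ = _
        rw [e, e, h1.eq]
      convert h2 using 1
      rw [av_amp, ← mul_assoc, ← mul_assoc, ← mul_assoc, (hs.s_π δ).eq, ← mul_assoc, ← mul_assoc,
        ← mul_assoc, ← map_mul, mul_inv_cancel_left]
      simp only [mul_assoc]
      rw [← map_mul, (hs.s_π _).eq]
      simp
    · have h2 := hc 1 g
      have h3 := hP.cov g 1
      rw [mul_one, h.U] at h3
      have e := fun g => (ind_comm_amp (fun γ => (hs.s_π γ).symm) g).eq
      rw [← h3] at h2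
      convert h2 using 1
      simp only [← mul_assoc, e g]
      simp only [mul_assoc, e g⁻¹]

end

end Crest.Agent.N111.B
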